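import Mathlib

/-!
Finitely many normalised vectors with a Hilbertian upper bound, from a maximal determinant map.
-/

namespace Vale.Agent.P129

open Module Finset

variable {𝕜 : Type*} [RCLike 𝕜]

theorem exists_max_det_map {E : Type*} [NormedAddCommGroup E] [NormedSpace 𝕜 E]
    [FiniteDimensional 𝕜 E] {n : ℕ} (L : E ≃ₗ[𝕜] EuclideanSpace 𝕜 (Fin n)) :
    ∃ T : EuclideanSpace 𝕜 (Fin n) →L[𝕜] E, ‖T‖ ≤ 1 ∧
      LinearMap.det (L.toLinearMap ∘ₗ T.toLinearMap) ≠ 0 ∧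
      ∀ S : EuclideanSpace 𝕜 (Fin n) →L[𝕜] E, ‖S‖ ≤ 1 →
        ‖LinearMap.det (L.toLinearMap ∘ₗ S.toLinearMap)‖ ≤
          ‖LinearMap.det (L.toLinearMap ∘ₗ T.toLinearMap)‖ := by
  have : ProperSpace (EuclideanSpace 𝕜 (Fin n) →L[𝕜] E) := FiniteDimensional.proper 𝕜 _
  let Lc : E →L[𝕜] EuclideanSpace 𝕜 (Fin n) := LinearMap.toContinuousLinearMap L.toLinearMap
  have hc : Continuous fun S : EuclideanSpace 𝕜 (Fin n) →L[𝕜] E =>
      ‖(Lc.comp S).det‖ :=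
    (ContinuousLinearMap.continuous_det.comp (continuous_const.clm_comp continuous_id)).norm
  obtain ⟨T, hT, hmax⟩ := (isCompact_closedBall (0 : EuclideanSpace 𝕜 (Fin n) →L[𝕜] E) 1).exists_isMaxOn
    ⟨0, Metric.mem_closedBall_self zero_le_one⟩ hc.continuousOn
  refine ⟨T, mem_closedBall_zero_iff.1 hT, ?_, fun S hS => hmax (mem_closedBall_zero_iff.2 hS)⟩
  let R : EuclideanSpace 𝕜 (Fin n) →L[𝕜] E := LinearMap.toContinuousLinearMap L.symm.toLinearMap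
  let r : 𝕜 := (((‖R‖ + 1)⁻¹ : ℝ) : 𝕜)
  have hr : ‖r • R‖ ≤ 1 := by
    rw [norm_smul, RCLike.norm_ofReal, abs_of_pos (by positivity), inv_mul_le_iff₀ (by positivity)]
    linarith
  have hdet : LinearMap.det (L.toLinearMap ∘ₗ (r • R).toLinearMap) = r ^ n := by
    have e : L.toLinearMap ∘ₗ (r • R).toLinearMap = r • LinearMap.id := by
      ext x
      simp [R]
    rw [e, LinearMap.det_smul, LinearMap.det_id, mul_one, finrank_euclideanSpace_fin]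
  intro h0
  have h := hmax (mem_closedBall_zero_iff.2 hr)
  change ‖LinearMap.det (L.toLinearMap ∘ₗ (r • R).toLinearMap)‖ ≤
    ‖LinearMap.det (L.toLinearMap ∘ₗ T.toLinearMap)‖ at h
  have hr0 : r ≠ 0 := RCLike.ofReal_ne_zero.2 (by positivity)
  rw [h0, hdet, norm_zero, norm_le_zero_iff] at h
  exact pow_ne_zero n hr0 h

theorem exists_mem_norm_map_ge {E : Type*} [NormedAddCommGroup E] [NormedSpace 𝕜 E] {n : ℕ}
    (L : E ≃ₗ[𝕜] EuclideanSpace 𝕜 (Fin n))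
    {T : EuclideanSpace 𝕜 (Fin n) →L[𝕜] E} (hT : ‖T‖ ≤ 1)
    (hd : LinearMap.det (L.toLinearMap ∘ₗ T.toLinearMap) ≠ 0)
    (hmax : ∀ S : EuclideanSpace 𝕜 (Fin n) →L[𝕜] E, ‖S‖ ≤ 1 →
        ‖LinearMap.det (L.toLinearMap ∘ₗ S.toLinearMap)‖ ≤
          ‖LinearMap.det (L.toLinearMap ∘ₗ T.toLinearMap)‖)
    (W : Submodule 𝕜 (EuclideanSpace 𝕜 (Fin n))) (hW : n ≤ 2 * finrank 𝕜 W)
    (hW0 : 0 < finrank 𝕜 W) :
    ∃ u ∈ W, ‖u‖ = 1 ∧ 1 / 4 ≤ ‖T u‖ := by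
  by_contra! hu
  have hsmall : ∀ x ∈ W, ‖T x‖ ≤ 1 / 4 * ‖x‖ := by
    intro x hx
    rcases eq_or_ne x 0 with rfl | h0
    · simp
    have h := (hu ((‖x‖ : 𝕜)⁻¹ • x) (W.smul_mem _ hx) (norm_smul_inv_norm h0)).le
    rw [map_smul, norm_smul, norm_inv, RCLike.norm_ofReal, abs_norm,
      inv_mul_le_iff₀ (norm_pos_iff.2 h0)] at h
    linarith
  let P : EuclideanSpace 𝕜 (Fin n) →L[𝕜] EuclideanSpace 𝕜 (Fin n) := W.starProjection
  let Q : EuclideanSpace 𝕜 (Fin n) →L[𝕜] EuclideanSpace 𝕜 (Fin n) := Wᗮ.starProjection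
  let A : EuclideanSpace 𝕜 (Fin n) →L[𝕜] EuclideanSpace 𝕜 (Fin n) :=
    (((16 / 5 : ℝ)) : 𝕜) • P + (((3 / 5 : ℝ)) : 𝕜) • Q
  have hS : ‖T.comp A‖ ≤ 1 := by
    refine ContinuousLinearMap.opNorm_le_bound _ zero_le_one fun x => ?_
    have hp : ‖T (P x)‖ ≤ 1 / 4 * ‖P x‖ := hsmall _ (W.starProjection_apply_mem x)
    have hq : ‖T (Q x)‖ ≤ ‖Q x‖ := (T.le_of_opNorm_le hT _).trans (one_mul _).le
    have hpy : ‖x‖ ^ 2 = ‖P x‖ ^ 2 + ‖Q x‖ ^ 2 :=
      Submodule.norm_sq_eq_add_norm_sq_starProjection x W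
    simp only [ContinuousLinearMap.comp_apply, A, add_apply,
      smul_apply, map_add, map_smul, one_mul]
    refine (norm_add_le _ _).trans ?_
    rw [norm_smul, norm_smul, RCLike.norm_ofReal, RCLike.norm_ofReal]
    norm_num
    nlinarith [norm_nonneg x, norm_nonneg (P x), norm_nonneg (Q x),
      sq_nonneg (3 * ‖P x‖ - 4 * ‖Q x‖)]
  have hA : LinearMap.det A.toLinearMap =
      (((16 / 5 : ℝ)) : 𝕜) ^ finrank 𝕜 W * (((3 / 5 : ℝ)) : 𝕜) ^ finrank 𝕜 Wᗮ := by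
    let e := Submodule.prodEquivOfIsCompl W Wᗮ W.isCompl_orthogonal
    have key : A.toLinearMap = e.toLinearMap ∘ₗ
        (LinearMap.prodMap ((((16 / 5 : ℝ)) : 𝕜) • (LinearMap.id : W →ₗ[𝕜] W))
          ((((3 / 5 : ℝ)) : 𝕜) • (LinearMap.id : Wᗮ →ₗ[𝕜] Wᗮ))) ∘ₗ e.symm.toLinearMap := by
      refine LinearMap.ext fun x => ?_
      obtain ⟨⟨p, q⟩, rfl⟩ := e.surjective x
      have hp : P (p : EuclideanSpace 𝕜 (Fin n)) = p := Submodule.starProjection_eq_self_iff.2 p.2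
      have hq : Q (q : EuclideanSpace 𝕜 (Fin n)) = q := Submodule.starProjection_eq_self_iff.2 q.2
      have hpq : P (q : EuclideanSpace 𝕜 (Fin n)) = 0 :=
        (Submodule.starProjection_apply_eq_zero_iff W).2 q.2
      have hqp : Q (p : EuclideanSpace 𝕜 (Fin n)) = 0 :=
        (Submodule.starProjection_apply_eq_zero_iff Wᗮ).2 (W.le_orthogonal_orthogonal p.2)
      simp [A, e, Submodule.coe_prodEquivOfIsCompl', hp, hq, hpq, hqp]
    rw [key, LinearMap.det_conj, LinearMap.det_prodMap, LinearMap.det_smul, LinearMap.det_smul,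
      LinearMap.det_id, LinearMap.det_id, mul_one, mul_one]
  have h := hmax _ hS
  rw [show L.toLinearMap ∘ₗ (T.comp A).toLinearMap =
      (L.toLinearMap ∘ₗ T.toLinearMap) ∘ₗ A.toLinearMap from rfl, LinearMap.det_comp, norm_mul,
    hA, norm_mul, norm_pow, norm_pow, RCLike.norm_ofReal, RCLike.norm_ofReal,
    abs_of_pos (by norm_num : (0 : ℝ) < 16 / 5),
    abs_of_pos (by norm_num : (0 : ℝ) < 3 / 5)] at h
  have hle : finrank 𝕜 Wᗮ ≤ finrank 𝕜 W := by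
    have := W.finrank_add_finrank_orthogonal
    rw [finrank_euclideanSpace_fin] at this
    omega
  have h1 : 1 < (16 / 5 : ℝ) ^ finrank 𝕜 W * (3 / 5 : ℝ) ^ finrank 𝕜 Wᗮ := by
    calc 1 < (48 / 25 : ℝ) ^ finrank 𝕜 W := one_lt_pow₀ (by norm_num) hW0.ne'
      _ = (16 / 5 : ℝ) ^ finrank 𝕜 W * (3 / 5 : ℝ) ^ finrank 𝕜 W := by
        rw [← mul_pow]; norm_num
      _ ≤ _ := mul_le_mul_of_nonneg_left
        (pow_le_pow_of_le_one (by norm_num) (by norm_num) hle) (by positivity)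
  nlinarith [norm_pos_iff.2 hd]

/-- Every space of dimension `2 * m` has `m` unit vectors with a Hilbertian upper bound. -/
theorem exists_hilbertian_unit_vectors {E : Type*} [NormedAddCommGroup E] [NormedSpace 𝕜 E]
    [FiniteDimensional 𝕜 E] {m : ℕ} (hE : finrank 𝕜 E = 2 * m) :
    ∃ g : Fin m → E, (∀ i, ‖g i‖ = 1) ∧
      ∀ c : Fin m → 𝕜, ‖∑ i, c i • g i‖ ≤ 4 * √(∑ i, ‖c i‖ ^ 2) := by
  obtain ⟨L⟩ : Nonempty (E ≃ₗ[𝕜] EuclideanSpace 𝕜 (Fin (2 * m))) :=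
    ⟨LinearEquiv.ofFinrankEq E _ (by rw [hE, finrank_euclideanSpace_fin])⟩
  obtain ⟨T, hT, hd, hmax⟩ := exists_max_det_map L
  have key : ∀ j, j ≤ m → ∃ u : Fin j → EuclideanSpace 𝕜 (Fin (2 * m)),
      Orthonormal 𝕜 u ∧ ∀ i, 1 / 4 ≤ ‖T (u i)‖ := by
    intro j
    induction j with
    | zero => exact fun _ => ⟨Fin.elim0, ⟨fun i => i.elim0, fun i => i.elim0⟩, fun i => i.elim0⟩
    | succ j ih =>
      intro hj
      obtain ⟨u, hu, hTu⟩ := ih (by omega)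
      let V := Submodule.span 𝕜 (Set.range u)
      have hV : finrank 𝕜 V = j := by
        simp [V, finrank_span_eq_card hu.linearIndependent]
      have hsum := V.finrank_add_finrank_orthogonal
      rw [hV, finrank_euclideanSpace_fin] at hsum
      obtain ⟨w, hw, hw1, hTw⟩ :=
        exists_mem_norm_map_ge L hT hd hmax Vᗮ (by omega) (by omega)
      have hwu : ∀ i, inner 𝕜 (u i) w = 0 := fun i =>
        V.inner_right_of_mem_orthogonal (Submodule.subset_span ⟨i, rfl⟩) hw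
      refine ⟨Fin.cons w u, ?_, Fin.cases hTw hTu⟩
      rw [orthonormal_iff_ite]
      intro a b
      refine Fin.cases ?_ (fun a => ?_) a <;> refine Fin.cases ?_ (fun b => ?_) b
      · simp [inner_self_eq_norm_sq_to_K, hw1]
      · simp [inner_eq_zero_symm.1 (hwu b), (Fin.succ_ne_zero b).symm]
      · simp [hwu a, Fin.succ_ne_zero a]
      · simp [orthonormal_iff_ite.1 hu a b]
  obtain ⟨u, hu, hTu⟩ := key m le_rfl
  have hpos : ∀ i, 0 < ‖T (u i)‖ := fun i => lt_of_lt_of_le (by norm_num) (hTu i)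
  refine ⟨fun i => (‖T (u i)‖ : 𝕜)⁻¹ • T (u i),
    fun i => norm_smul_inv_norm (norm_pos_iff.1 (hpos i)), fun c => ?_⟩
  let d : Fin m → 𝕜 := fun i => c i * (‖T (u i)‖ : 𝕜)⁻¹
  have e : (∑ i, c i • ((‖T (u i)‖ : 𝕜)⁻¹ • T (u i))) = T (∑ i, d i • u i) := by
    simp [d, map_sum, smul_smul]
  rw [e]
  have hn : ‖∑ i, d i • u i‖ = √(∑ i, ‖d i‖ ^ 2) := by
    rw [norm_eq_sqrt_re_inner (𝕜 := 𝕜)]
    congr 1
    rw [hu.inner_sum, map_sum]
    refine Finset.sum_congr rfl fun i _ => ?_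
    rw [RCLike.conj_mul, ← RCLike.ofReal_pow, RCLike.ofReal_re]
  refine (T.le_of_opNorm_le hT _).trans ?_
  rw [one_mul, hn, Real.sqrt_le_iff]
  refine ⟨by positivity, ?_⟩
  rw [mul_pow, Real.sq_sqrt (by positivity), Finset.mul_sum]
  refine Finset.sum_le_sum fun i _ => ?_
  have h4 : ‖T (u i)‖⁻¹ ≤ 4 := by
    rw [inv_le_comm₀ (hpos i) (by norm_num)]
    linarith [hTu i]
  simp only [d, norm_mul, norm_inv, RCLike.norm_ofReal, abs_norm, mul_pow]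
  rw [mul_comm]
  exact mul_le_mul_of_nonneg_right (pow_le_pow_left₀ (by positivity) h4 2) (by positivity)

end Vale.Agent.P129
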