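import Mathlib

/-!
A sequence of functionals whose values are summable on a dense subspace yields a separable
infinite dimensional quotient.
-/

namespace Vale.Agent.P129

open Filter Set Topology

variable {𝕜 X : Type*} [RCLike 𝕜] [NormedAddCommGroup X] [NormedSpace 𝕜 X]

/-- Near-norming vectors in the common kernel of finitely many functionals. -/
theorem eventually_exists_biorth {φ : ℕ → StrongDual 𝕜 X} (h1 : ∀ n, ‖φ n‖ = 1)
    (h0 : ∀ x, Tendsto (fun n => φ n x) atTop (𝓝 0)) {ι : Type*} [Finite ι]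
    (f : ι → StrongDual 𝕜 X) :
    ∀ᶠ n in atTop, ∃ y : X, (∀ i, f i y = 0) ∧ φ n y = 1 ∧ ‖y‖ ≤ 8 := by
  have := Fintype.ofFinite ι
  let K : Submodule 𝕜 X := ⨅ i, LinearMap.ker (f i).toLinearMap
  let S : Submodule 𝕜 (StrongDual 𝕜 X) := Submodule.span 𝕜 (range f)
  have : FiniteDimensional 𝕜 S := FiniteDimensional.span_of_finite 𝕜 (finite_range f)
  have : ProperSpace S := FiniteDimensional.proper 𝕜 S
  have hgood : ∀ n, 1 / 4 ≤ ‖(φ n).comp K.subtypeL‖ →
      ∃ y : X, (∀ i, f i y = 0) ∧ φ n y = 1 ∧ ‖y‖ ≤ 8 := by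
    intro n hn
    have h8 : (1 / 8 : ℝ) < ‖(φ n).comp K.subtypeL‖ := by linarith
    obtain ⟨u, hu⟩ : ∃ u : K, (1 / 8) * ‖u‖ < ‖(φ n).comp K.subtypeL u‖ := by
      by_contra! h
      exact absurd ((φ n).comp K.subtypeL |>.opNorm_le_bound (by norm_num) h) (not_le.2 h8)
    have hu' : (1 / 8) * ‖(u : X)‖ < ‖φ n (u : X)‖ := hu
    have hne : φ n (u : X) ≠ 0 := fun e => by
      rw [e, norm_zero] at hu'; linarith [norm_nonneg (u : X)]
    refine ⟨(φ n (u : X))⁻¹ • (u : X), fun i => ?_, ?_, ?_⟩
    · have : f i (u : X) = 0 := LinearMap.mem_ker.1 ((Submodule.mem_iInf _).1 u.2 i)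
      simp [this]
    · simp [inv_mul_cancel₀ hne]
    · rw [norm_smul, norm_inv, inv_mul_le_iff₀ (norm_pos_iff.2 hne)]
      linarith
  have hbad : ∀ n, ‖(φ n).comp K.subtypeL‖ < 1 / 4 →
      ∃ s : S, ‖(s : StrongDual 𝕜 X)‖ ≤ 2 ∧ ‖φ n - (s : StrongDual 𝕜 X)‖ ≤ 1 / 4 := by
    intro n hn
    obtain ⟨h, hext, hnorm⟩ := exists_extension_norm_eq K ((φ n).comp K.subtypeL)
    have hker : (⨅ i, LinearMap.ker (f i).toLinearMap) ≤
        LinearMap.ker (φ n - h).toLinearMap := by
      intro x hx
      have := hext ⟨x, hx⟩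
      simp only [ContinuousLinearMap.comp_apply, Submodule.subtypeL_apply] at this
      simp [this]
    have hmem := mem_span_of_iInf_ker_le_ker hker
    obtain ⟨c, hc⟩ := (Submodule.mem_span_range_iff_exists_fun 𝕜).1 hmem
    have hS : φ n - h ∈ S := by
      have e : φ n - h = ∑ i, c i • f i := by
        apply ContinuousLinearMap.coe_injective
        rw [ContinuousLinearMap.toLinearMap_sum]
        simpa using hc.symm
      rw [e]
      exact S.sum_mem fun i _ => S.smul_mem _ (Submodule.subset_span (mem_range_self i))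
    refine ⟨⟨φ n - h, hS⟩, ?_, ?_⟩
    · calc ‖φ n - h‖ ≤ ‖φ n‖ + ‖h‖ := norm_sub_le _ _
        _ ≤ 2 := by rw [h1, hnorm]; linarith
    · simp only [sub_sub_cancel]
      rw [hnorm]; linarith
  by_contra hev
  have hfreq : ∃ᶠ n in atTop, ‖(φ n).comp K.subtypeL‖ < 1 / 4 :=
    (not_eventually.1 hev).mono fun n hn => lt_of_not_ge fun h => hn (hgood n h)
  obtain ⟨g, hgm, hg⟩ := extraction_of_frequently_atTop hfreq
  choose s hs2 hs4 using fun k => hbad (g k) (hg k)
  have hball : ∀ k, s k ∈ Metric.closedBall (0 : S) 2 := fun k =>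
    (mem_closedBall_zero_iff (E := S)).2 ((Submodule.coe_norm (s k)).trans_le (hs2 k))
  obtain ⟨a, -, τ, hτ, hlim⟩ := (isCompact_closedBall (0 : S) 2).tendsto_subseq hball
  have hap : ∀ x : X, ‖(a : StrongDual 𝕜 X) x‖ ≤ 1 / 4 * ‖x‖ := by
    intro x
    have t1 : Tendsto (fun k => (s (τ k) : StrongDual 𝕜 X) x) atTop (𝓝 ((a : StrongDual 𝕜 X) x)) :=
      ((ContinuousLinearMap.apply 𝕜 𝕜 x).continuous.comp continuous_subtype_val).continuousAt
        |>.tendsto.comp hlim
    have t2 := ((h0 x).comp (hgm.comp hτ).tendsto_atTop).sub t1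
    rw [zero_sub] at t2
    have := le_of_tendsto t2.norm (Eventually.of_forall fun k =>
      show ‖φ (g (τ k)) x - (s (τ k) : StrongDual 𝕜 X) x‖ ≤ 1 / 4 * ‖x‖ from
        ((φ (g (τ k)) - (s (τ k) : StrongDual 𝕜 X)).le_opNorm x).trans
          (mul_le_mul_of_nonneg_right (hs4 _) (norm_nonneg x)))
    rwa [norm_neg] at this
  have ha : ‖(a : StrongDual 𝕜 X)‖ ≤ 1 / 4 :=
    ContinuousLinearMap.opNorm_le_bound _ (by norm_num) hap
  have ha' : 3 / 4 ≤ ‖(a : StrongDual 𝕜 X)‖ := by
    refine ge_of_tendsto ((continuous_subtype_val.tendsto a).comp hlim).norm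
      (Eventually.of_forall fun k => ?_)
    have := norm_sub_norm_le (φ (g (τ k))) (s (τ k) : StrongDual 𝕜 X)
    simp only [Function.comp_apply]
    rw [h1] at this
    linarith [hs4 (τ k)]
  linarith

/-- If a normalised weak* null sequence of functionals is summable on a dense subspace, the space
has a separable infinite dimensional quotient. -/
theorem exists_quotient_of_summable [CompleteSpace X] {φ : ℕ → StrongDual 𝕜 X}
    (h1 : ∀ n, ‖φ n‖ = 1) (h0 : ∀ x, Tendsto (fun n => φ n x) atTop (𝓝 0))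
    (hd : Dense {x : X | Summable fun n => ‖φ n x‖}) :
    ∃ M : Submodule 𝕜 X, IsClosed (M : Set X) ∧
      TopologicalSpace.SeparableSpace (X ⧸ M) ∧ ¬ FiniteDimensional 𝕜 (X ⧸ M) := by
  classical
  obtain ⟨e, he, hr⟩ := exists_seq_of_forall_finset_exists
    (fun a : ℕ × ℕ × X => φ a.2.1 a.2.2 = 1 ∧ ‖a.2.2‖ ≤ 8)
    (fun a b => a.1 < b.1 ∧ a.2.1 < b.2.1 ∧ φ a.2.1 b.2.2 = 0 ∧
      ‖φ b.2.1 a.2.2‖ ≤ (1 / 4 : ℝ) ^ b.1) fun s _ => by
      let j := s.sup Prod.fst + 1
      have e1 := eventually_exists_biorth h1 h0 fun a : s => φ a.1.2.1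
      have e2 : ∀ᶠ n in atTop, ∀ a ∈ s, a.2.1 < n ∧ ‖φ n a.2.2‖ ≤ (1 / 4 : ℝ) ^ j :=
        s.eventually_all.2 fun a _ => (eventually_gt_atTop _).and <| by
          have := (h0 a.2.2).norm
          rw [norm_zero] at this
          exact this.eventually_le_const (by positivity)
      obtain ⟨n, ⟨y, hy0, hy1, hy8⟩, hn⟩ := (e1.and e2).exists
      exact ⟨(j, n, y), ⟨hy1, hy8⟩, fun a ha =>
        ⟨Nat.lt_succ_of_le (Finset.le_sup ha), (hn a ha).1, hy0 ⟨a, ha⟩, (hn a ha).2⟩⟩
  obtain ⟨k, hk⟩ : ∃ k : ℕ → ℕ, k = fun i => (e i).2.1 := ⟨_, rfl⟩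
  obtain ⟨y, hy⟩ : ∃ y : ℕ → X, y = fun i => (e i).2.2 := ⟨_, rfl⟩
  have hmono : StrictMono fun i => (e i).1 := fun i l h => (hr i l h).1
  have hkinj : Function.Injective k := by
    rw [hk]; exact StrictMono.injective fun i l h => (hr i l h).2.1
  have hone : ∀ i, φ (k i) (y i) = 1 := fun i => by rw [hk, hy]; exact (he i).1
  have hy8 : ∀ i, ‖y i‖ ≤ 8 := fun i => by rw [hy]; exact (he i).2
  have hzero : ∀ i l, i < l → φ (k i) (y l) = 0 := fun i l h => by
    rw [hk, hy]; exact (hr i l h).2.2.1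
  have hsmall : ∀ i l, i < l → ‖φ (k l) (y i)‖ ≤ (1 / 4 : ℝ) ^ l := fun i l h => by
    rw [hk, hy]
    exact ((hr i l h).2.2.2).trans
      (pow_le_pow_of_le_one (by norm_num) (by norm_num) hmono.le_apply)
  let M : Submodule 𝕜 X := ⨅ i, LinearMap.ker (φ (k i)).toLinearMap
  have hM : IsClosed (M : Set X) := by
    simp only [M, Submodule.coe_iInf]
    exact isClosed_iInter fun i => (φ (k i)).isClosed_ker
  refine ⟨M, hM, ?_, ?_⟩
  · let V : Submodule 𝕜 X := Submodule.span 𝕜 (range y)
    have hsub : ∀ x : X, (Summable fun n => ‖φ n x‖) →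
        M.mkQ x ∈ closure (M.mkQ '' (V : Set X)) := by
      intro x hx
      obtain ⟨z, hz0, hzs⟩ : ∃ z : ℕ → X, z 0 = x ∧
          ∀ m, z (m + 1) = z m - φ (k m) (z m) • y m :=
        ⟨fun m => Nat.rec x (fun m zm => zm - φ (k m) zm • y m) m, rfl, fun _ => rfl⟩
      obtain ⟨a, ha⟩ : ∃ a : ℕ → 𝕜, a = fun m => φ (k m) (z m) := ⟨_, rfl⟩
      have hzm : ∀ m, z m = x - ∑ i ∈ Finset.range m, a i • y i := by
        intro m
        induction m with
        | zero => simp [hz0]
        | succ m ih =>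
          rw [hzs, Finset.sum_range_succ, ← sub_sub, ← ih, ha]
      have hkill : ∀ i m, i < m → φ (k i) (z m) = 0 := by
        intro i m him
        induction m, him using Nat.le_induction with
        | base => simp [hzs, hone]
        | succ m hm ih => simp [hzs, ih, hzero i m hm]
      let S : ℕ → ℝ := fun m => ∑ i ∈ Finset.range m, ‖a i‖
      let T : ℕ → ℝ := fun m => ∑ i ∈ Finset.range m, ‖φ (k i) x‖
      let E : ℕ → ℝ := fun m => ∑ i ∈ Finset.range m, (1 / 4 : ℝ) ^ i
      have hS : ∀ m, S m ≤ Real.exp (E m) * T m := by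
        intro m
        induction m with
        | zero => simp [S, T]
        | succ m ih =>
          have ha' : ‖a m‖ ≤ ‖φ (k m) x‖ + (1 / 4 : ℝ) ^ m * S m := by
            rw [ha]; simp only
            rw [hzm m, map_sub, map_sum]
            refine (norm_sub_le _ _).trans (add_le_add le_rfl ((norm_sum_le _ _).trans ?_))
            simp only [S, Finset.mul_sum]
            refine Finset.sum_le_sum fun i hi => ?_
            rw [map_smul, norm_smul, mul_comm]
            exact mul_le_mul_of_nonneg_right (hsmall i m (Finset.mem_range.1 hi)) (norm_nonneg _)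
          simp only [S, T, E, Finset.sum_range_succ] at ih ha' ⊢
          rw [Real.exp_add]
          have hp := pow_nonneg (show (0 : ℝ) ≤ 1 / 4 by norm_num) m
          have := Real.add_one_le_exp ((1 / 4 : ℝ) ^ m)
          have hT : (0 : ℝ) ≤ ∑ i ∈ Finset.range m, ‖φ (k i) x‖ :=
            Finset.sum_nonneg fun _ _ => norm_nonneg _
          have h1e : 1 ≤ Real.exp (∑ i ∈ Finset.range m, (1 / 4 : ℝ) ^ i) :=
            Real.one_le_exp (Finset.sum_nonneg fun i _ => by positivity)
          have hexp : 1 ≤ Real.exp ((1 / 4 : ℝ) ^ m) := by linarith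
          have hn := norm_nonneg (φ (k m) x)
          nlinarith [mul_le_mul_of_nonneg_left ih (show (0 : ℝ) ≤ 1 + (1 / 4 : ℝ) ^ m by linarith),
            mul_le_mul_of_nonneg_right this (mul_nonneg (Real.exp_nonneg
              (∑ i ∈ Finset.range m, (1 / 4 : ℝ) ^ i)) hT),
            mul_nonneg hn (sub_nonneg.2 (one_le_mul_of_one_le_of_one_le h1e hexp))]
      have hxk : Summable fun i => ‖φ (k i) x‖ := hx.comp_injective hkinj
      have hgeo : Summable fun i => (1 / 4 : ℝ) ^ i :=
        summable_geometric_of_lt_one (by norm_num) (by norm_num)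
      have hsum : Summable fun i => ‖a i‖ :=
        summable_of_sum_range_le (c := Real.exp (∑' i, (1 / 4 : ℝ) ^ i) * ∑' i, ‖φ (k i) x‖)
          (fun i => norm_nonneg _) fun m => (hS m).trans (mul_le_mul
            (Real.exp_le_exp.2 (hgeo.sum_le_tsum _ fun i _ => by positivity))
            (hxk.sum_le_tsum _ fun i _ => norm_nonneg _)
            (Finset.sum_nonneg fun i _ => norm_nonneg _) (Real.exp_nonneg _))
      have hser : Summable fun i => a i • y i :=
        Summable.of_norm_bounded (hsum.mul_right 8) fun i => by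
          rw [norm_smul]; exact mul_le_mul_of_nonneg_left (hy8 i) (norm_nonneg _)
      have hlim : Tendsto z atTop (𝓝 (x - ∑' i, a i • y i)) := by
        rw [funext hzm]
        exact tendsto_const_nhds.sub hser.hasSum.tendsto_sum_nat
      have hinM : x - ∑' i, a i • y i ∈ M := (Submodule.mem_iInf _).2 fun i =>
        LinearMap.mem_ker.2 (tendsto_nhds_unique
          (((φ (k i)).continuous.tendsto _).comp hlim)
          (tendsto_const_nhds.congr' ((eventually_gt_atTop i).mono fun m hm =>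
            (hkill i m hm).symm)))
      have heq : M.mkQ x = M.mkQ (∑' i, a i • y i) := (Submodule.Quotient.eq M).2 hinM
      rw [heq]
      refine mem_closure_of_tendsto ((continuous_quot_mk.tendsto _).comp
        hser.hasSum.tendsto_sum_nat) (Eventually.of_forall fun m => ?_)
      exact mem_image_of_mem _ (V.sum_mem fun i _ =>
        V.smul_mem _ (Submodule.subset_span (mem_range_self i)))
    have hV : TopologicalSpace.IsSeparable (M.mkQ '' (V : Set X)) :=
      ((countable_range y).isSeparable.span (R := 𝕜)).image continuous_quot_mk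
    refine TopologicalSpace.isSeparable_univ_iff.1 (hV.closure.mono fun w _ => ?_)
    obtain ⟨x, rfl⟩ := M.mkQ_surjective w
    have hxd : x ∈ closure {x : X | Summable fun n => ‖φ n x‖} := hd x
    exact (closure_minimal (s := {x : X | Summable fun n => ‖φ n x‖})
      (fun x hx => hsub x hx) (isClosed_closure.preimage continuous_quot_mk)) hxd
  · intro hfin
    have hli : LinearIndependent 𝕜 fun i => M.mkQ (y i) := by
      rw [linearIndependent_iff']
      intro s c hc
      simp only [← map_smul] at hc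
      rw [← map_sum, Submodule.mkQ_apply, Submodule.Quotient.mk_eq_zero,
        Submodule.mem_iInf] at hc
      by_contra! hne
      obtain ⟨i, hi, hci⟩ := hne
      have hne' : (s.filter fun l => c l ≠ 0).Nonempty := ⟨i, Finset.mem_filter.2 ⟨hi, hci⟩⟩
      obtain ⟨hl, hcl⟩ := Finset.mem_filter.1 (Finset.min'_mem _ hne')
      have h := hc ((s.filter fun l => c l ≠ 0).min' hne')
      rw [LinearMap.mem_ker] at h
      simp only [map_sum, map_smul, ContinuousLinearMap.coe_coe] at h
      rw [Finset.sum_eq_single_of_mem _ hl fun b hb hbne => ?_] at h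
      · rw [hone, smul_eq_mul, mul_one] at h; exact hcl h
      · by_cases hcb : c b = 0
        · rw [hcb, zero_smul]
        · rw [hzero _ b (lt_of_le_of_ne (Finset.min'_le _ b (Finset.mem_filter.2 ⟨hb, hcb⟩))
            (Ne.symm hbne)), smul_zero]
    exact absurd hli.finite (by rintro h; exact not_finite ℕ)

end Vale.Agent.P129
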