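import Mathlib
import Vale.Agent.P129.Fast
import Vale.Agent.P129.Ellipsoid

/-!
Separable infinite dimensional quotients from a random choice of functionals.
-/

namespace Vale.Agent.P129

open Filter Set Topology MeasureTheory Module

variable {𝕜 : Type*} [RCLike 𝕜] {X : Type*} [NormedAddCommGroup X] [NormedSpace 𝕜 X]

theorem not_finiteDimensional_dual (hX : ¬ FiniteDimensional 𝕜 X) :
    ¬ FiniteDimensional 𝕜 (StrongDual 𝕜 X) := fun h => by
  have : FiniteDimensional 𝕜 (StrongDual 𝕜 (StrongDual 𝕜 X)) := inferInstance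
  let J := NormedSpace.inclusionInDoubleDualLi (𝕜 := 𝕜) (E := X)
  have hinj : Function.Injective (J.toLinearMap : X →ₗ[𝕜] StrongDual 𝕜 (StrongDual 𝕜 X)) :=
    J.injective
  exact hX (FiniteDimensional.of_injective (V₂ := StrongDual 𝕜 (StrongDual 𝕜 X)) _ hinj)

theorem exists_unit_functionals (hX : ¬ FiniteDimensional 𝕜 X) (m : ℕ) :
    ∃ g : Fin m → StrongDual 𝕜 X, (∀ i, ‖g i‖ = 1) ∧
      ∀ x : X, ∑ i, ‖g i x‖ ^ 2 ≤ 16 * ‖x‖ ^ 2 := by
  obtain ⟨s, hs, hli⟩ := exists_finset_linearIndependent_of_le_rank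
    (Cardinal.natCast_lt_aleph0.le.trans (not_lt.1 (mt Module.rank_lt_aleph0_iff.1
      (not_finiteDimensional_dual hX))) : ((2 * m : ℕ) : Cardinal) ≤
        Module.rank 𝕜 (StrongDual 𝕜 X))
  let f : s → StrongDual 𝕜 X := fun a => a
  have hf : LinearIndependent 𝕜 f := hli
  let E : Submodule 𝕜 (StrongDual 𝕜 X) := Submodule.span 𝕜 (range f)
  have : FiniteDimensional 𝕜 E := FiniteDimensional.span_of_finite 𝕜 (finite_range f)
  have hE : finrank 𝕜 E = 2 * m := by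
    simp [E, finrank_span_eq_card hf, hs]
  obtain ⟨g, hg1, hg⟩ := exists_hilbertian_unit_vectors (𝕜 := 𝕜) (E := E) hE
  refine ⟨fun i => (g i : StrongDual 𝕜 X), fun i => hg1 i, fun x => ?_⟩
  let S : ℝ := ∑ i, ‖(g i : StrongDual 𝕜 X) x‖ ^ 2
  change S ≤ 16 * ‖x‖ ^ 2
  have h := hg fun i => (starRingEnd 𝕜) ((g i : StrongDual 𝕜 X) x)
  simp only [RCLike.norm_conj] at h
  change ‖((∑ i, (starRingEnd 𝕜) ((g i : StrongDual 𝕜 X) x) • g i : E) : StrongDual 𝕜 X)‖
    ≤ 4 * √S at h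
  have e : ((∑ i, (starRingEnd 𝕜) ((g i : StrongDual 𝕜 X) x) • g i : E) : StrongDual 𝕜 X) x
      = (S : 𝕜) := by
    simp [S, RCLike.conj_mul]
  have hS : 0 ≤ S := Finset.sum_nonneg fun i _ => by positivity
  have h2 : S ≤ 4 * √S * ‖x‖ := by
    have := ContinuousLinearMap.le_of_opNorm_le _ h x
    rwa [e, RCLike.norm_ofReal, abs_of_nonneg hS] at this
  nlinarith [Real.sq_sqrt hS, Real.sqrt_nonneg S, norm_nonneg x,
    mul_self_nonneg (√S - 4 * ‖x‖)]

/-- Finitely many unit functionals from the previous lemma, scaled, satisfy the weak 2-summing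
normalisation; a set on which the values are summing of some order meets few of them. -/
theorem exists_quotient_of_slalom [CompleteSpace X] {I : Type*} (hX : ¬ FiniteDimensional 𝕜 X)
    (S : I → Set X) (hS : ∀ i, ∃ (C : ℝ) (p : ℕ), ∀ (n : ℕ) (g : Fin n → StrongDual 𝕜 X),
      (∀ x, ∑ j, ‖g j x‖ ^ 2 ≤ ‖x‖ ^ 2) → ∀ x : Fin n → X, (∀ j, x j ∈ S i) →
        ∑ j, ‖g j (x j)‖ ^ p ≤ C)
    (hD : Dense (Submodule.span 𝕜 (⋃ i, S i) : Set X)) (N : ℕ → ℕ)
    (hN : ∀ B : I → (k : ℕ) → Finset (Fin (N k)), (∀ i k, (B i k).card ≤ 4 ^ k) →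
      ∃ w : (k : ℕ) → Fin (N k), ∀ i, ∀ᶠ k in atTop, w k ∉ B i k) :
    ∃ M : Submodule 𝕜 X, IsClosed (M : Set X) ∧
      TopologicalSpace.SeparableSpace (X ⧸ M) ∧ ¬ FiniteDimensional 𝕜 (X ⧸ M) := by
  classical
  choose g hg1 hg using fun k => exists_unit_functionals hX (N k)
  choose C p hC using hS
  let r : I → ℝ := fun i => 1 - 1 / (2 * ((p i : ℝ) + 1))
  have hr : ∀ i, 0 < r i ∧ r i < 1 ∧ (1 / 2 : ℝ) ≤ r i ^ p i := by
    intro i
    have h0 : (0 : ℝ) ≤ p i := Nat.cast_nonneg _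
    have h1 : (0 : ℝ) < 1 / (2 * ((p i : ℝ) + 1)) := by positivity
    have h2 : 1 / (2 * ((p i : ℝ) + 1)) ≤ 1 / 2 := by
      gcongr
      linarith
    refine ⟨by simp only [r]; linarith, by simp only [r]; linarith, ?_⟩
    have h4 : (p i : ℝ) * (1 / (2 * ((p i : ℝ) + 1))) ≤ 1 / 2 := by
      rw [mul_one_div, div_le_iff₀ (by positivity)]
      linarith
    calc (1 / 2 : ℝ) ≤ 1 + (p i : ℝ) * -(1 / (2 * ((p i : ℝ) + 1))) := by linarith
      _ ≤ (1 + -(1 / (2 * ((p i : ℝ) + 1)))) ^ p i :=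
        one_add_mul_le_pow (by linarith) _
      _ = r i ^ p i := by simp [r, sub_eq_add_neg]
  let B₀ : I → (k : ℕ) → Finset (Fin (N k)) := fun i k =>
    Finset.univ.filter fun j => ∃ x ∈ S i, r i ^ k < ‖g k j x‖
  have hcard₀ : ∀ i k, ((B₀ i k).card : ℝ) ≤ max (C i) 0 * 4 ^ p i * 2 ^ k := by
    intro i k
    rcases eq_empty_or_nonempty (S i) with he | ⟨x₀, hx₀⟩
    · simp [B₀, he]
    let x : Fin (N k) → X := fun j =>
      if h : ∃ x ∈ S i, r i ^ k < ‖g k j x‖ then h.choose else x₀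
    have hx : ∀ j, x j ∈ S i := by
      intro j
      simp only [x]
      split
      · rename_i h; exact h.choose_spec.1
      · exact hx₀
    let q : 𝕜 := ((1 / 4 : ℝ) : 𝕜)
    have hq : ‖q‖ = 1 / 4 := by simp [q]
    have h := hC i (N k) (fun j => q • g k j) (fun y => by
      simp only [smul_apply, smul_eq_mul, norm_mul, hq, mul_pow, ← Finset.mul_sum]
      linarith [hg k y]) x hx
    simp only [smul_apply, smul_eq_mul, norm_mul, hq, mul_pow, ← Finset.mul_sum] at h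
    have h1 : ((B₀ i k).card : ℝ) * (r i ^ k) ^ p i ≤ ∑ j, ‖g k j (x j)‖ ^ p i := by
      rw [← nsmul_eq_mul]
      refine (Finset.card_nsmul_le_sum _ _ _ fun j hj => ?_).trans
        (Finset.sum_le_univ_sum_of_nonneg fun j => by positivity)
      have hj' := (Finset.mem_filter.1 hj).2
      simp only [x, dif_pos hj']
      exact pow_le_pow_left₀ (pow_nonneg (hr i).1.le k) hj'.choose_spec.2.le _
    have h2 : (1 / 2 : ℝ) ^ k ≤ (r i ^ k) ^ p i := by
      rw [← pow_mul, mul_comm, pow_mul]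
      exact pow_le_pow_left₀ (by norm_num) (hr i).2.2 k
    have h3 : ((B₀ i k).card : ℝ) * (1 / 2) ^ k ≤ max (C i) 0 * 4 ^ p i := by
      rw [one_div, inv_pow, inv_mul_le_iff₀ (by positivity)] at h
      nlinarith [mul_le_mul_of_nonneg_left h2 (Nat.cast_nonneg (α := ℝ) (B₀ i k).card),
        mul_le_mul_of_nonneg_right (le_max_left (C i) 0)
          (show (0 : ℝ) ≤ 4 ^ p i by positivity)]
    calc ((B₀ i k).card : ℝ) = (B₀ i k).card * (1 / 2) ^ k * 2 ^ k := by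
          rw [mul_assoc, ← mul_pow]; norm_num
      _ ≤ _ := mul_le_mul_of_nonneg_right h3 (by positivity)
  obtain ⟨w, hw⟩ := hN (fun i k => if (B₀ i k).card ≤ 4 ^ k then B₀ i k else ∅) fun i k => by
    split
    · assumption
    · simp
  let φ : ℕ → StrongDual 𝕜 X := fun k => g k (w k)
  have hφ : ∀ k, ‖φ k‖ = 1 := fun k => hg1 k _
  have hsum : ∀ x ∈ Submodule.span 𝕜 (⋃ i, S i), Summable fun k => ‖φ k x‖ := by
    intro x hx
    refine Submodule.span_induction (p := fun x _ => Summable fun k => ‖φ k x‖) ?_ ?_ ?_ ?_ hx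
    · intro x hx
      obtain ⟨i, hi⟩ := mem_iUnion.1 hx
      have hsmall : ∀ᶠ k in atTop, (B₀ i k).card ≤ 4 ^ k := by
        filter_upwards [(tendsto_pow_atTop_atTop_of_one_lt (show (1 : ℝ) < 2 by norm_num))
          |>.eventually_ge_atTop (max (C i) 0 * 4 ^ p i)] with k hk
        have : ((B₀ i k).card : ℝ) ≤ 4 ^ k := (hcard₀ i k).trans <| by
          refine (mul_le_mul_of_nonneg_right hk (by positivity : (0 : ℝ) ≤ 2 ^ k)).trans ?_
          rw [← mul_pow]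
          norm_num
        exact_mod_cast this
      refine (summable_geometric_of_lt_one (hr i).1.le (hr i).2.1).of_norm_bounded_eventually_nat
        ((hsmall.and (hw i)).mono fun k hk => ?_)
      rw [norm_norm]
      have h5 := hk.2
      simp only [if_pos hk.1, B₀, Finset.mem_filter, Finset.mem_univ, true_and, not_exists,
        not_and, not_lt] at h5
      exact h5 x hi
    · simp
    · exact fun x y _ _ hx hy => (hx.add hy).of_nonneg_of_le (fun k => norm_nonneg _)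
        fun k => by rw [map_add]; exact norm_add_le _ _
    · exact fun c x _ hx => by simpa [norm_smul] using hx.mul_left ‖c‖
  refine exists_quotient_of_summable hφ (fun x => ?_) (hD.mono hsum)
  rw [NormedAddGroup.tendsto_nhds_zero]
  intro ε hε
  obtain ⟨y, hy, hxy⟩ := Metric.mem_closure_iff.1 (hD x) (ε / 2) (by positivity)
  filter_upwards [(hsum y hy).tendsto_atTop_zero.eventually_lt_const
    (show (0 : ℝ) < ε / 2 by positivity)] with k hk
  have h5 : ‖φ k (x - y)‖ ≤ ‖x - y‖ := by simpa [hφ k] using (φ k).le_opNorm (x - y)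
  rw [dist_eq_norm] at hxy
  have : φ k x = φ k y + φ k (x - y) := by rw [map_sub]; ring
  rw [this]
  linarith [norm_add_le (φ k y) (φ k (x - y))]

theorem singleton_summing (d : X) :
    ∃ (C : ℝ) (p : ℕ), ∀ (n : ℕ) (g : Fin n → StrongDual 𝕜 X),
      (∀ x, ∑ j, ‖g j x‖ ^ 2 ≤ ‖x‖ ^ 2) → ∀ x : Fin n → X, (∀ j, x j ∈ ({d} : Set X)) →
        ∑ j, ‖g j (x j)‖ ^ p ≤ C :=
  ⟨‖d‖ ^ 2, 2, fun n g hg x hx => by simpa [show ∀ j, x j = d from hx] using hg d⟩

/-- The digits of a real number in the mixed base with `8 ^ k` values at place `k`. -/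
def scale : ℕ → ℕ
  | 0 => 1
  | k + 1 => scale k * 8 ^ k

theorem scale_pos : ∀ k, 0 < scale k
  | 0 => Nat.one_pos
  | k + 1 => Nat.mul_pos (scale_pos k) (pow_pos (by norm_num) k)

/-- The `k`-th digit of `t`. -/
noncomputable def digit (k : ℕ) (t : ℝ) : Fin (8 ^ k) :=
  ⟨⌊Int.fract t * (scale (k + 1) : ℝ)⌋₊ % 8 ^ k, Nat.mod_lt _ (pow_pos (by norm_num) k)⟩

theorem volume_digit_mem_le (k : ℕ) (S : Finset (Fin (8 ^ k))) :
    volume {t : ℝ | t ∈ Ico (0 : ℝ) 1 ∧ digit k t ∈ S} ≤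
      ENNReal.ofReal ((S.card : ℝ) / 8 ^ k) := by
  obtain ⟨M, hM⟩ : ∃ M, M = scale (k + 1) := ⟨_, rfl⟩
  have hMpos : (0 : ℝ) < M := by rw [hM]; exact_mod_cast scale_pos (k + 1)
  let B : Finset (ℕ × Fin (8 ^ k)) := Finset.range (scale k) ×ˢ S
  let J : ℕ × Fin (8 ^ k) → Set ℝ := fun p =>
    Ico (((p.1 * 8 ^ k + p.2 : ℕ) : ℝ) / M) ((((p.1 * 8 ^ k + p.2 : ℕ) : ℝ) + 1) / M)
  have hsub : {t : ℝ | t ∈ Ico (0 : ℝ) 1 ∧ digit k t ∈ S} ⊆ ⋃ p ∈ B, J p := by
    rintro t ⟨⟨ht0, ht1⟩, htS⟩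
    obtain ⟨q, hq⟩ : ∃ q, q = ⌊t * (M : ℝ)⌋₊ := ⟨_, rfl⟩
    have hd : (digit k t : ℕ) = q % 8 ^ k := by
      simp [digit, hq, hM, Int.fract_eq_self.2 ⟨ht0, ht1⟩]
    have hlt : q < scale k * 8 ^ k := by
      rw [hq, show scale k * 8 ^ k = M from hM.symm, Nat.floor_lt (by positivity)]
      nlinarith
    refine mem_iUnion₂.2 ⟨(q / 8 ^ k, digit k t), ?_, ?_⟩
    · simp [B, htS, Nat.div_lt_iff_lt_mul (pow_pos (show (0 : ℕ) < 8 by norm_num) k), hlt]
    · have e : q / 8 ^ k * 8 ^ k + (digit k t : ℕ) = q := by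
        rw [hd]; exact Nat.div_add_mod' q _
      simp only [J, mem_Ico, div_le_iff₀ hMpos, lt_div_iff₀ hMpos]
      rw [e, hq]
      exact ⟨Nat.floor_le (by positivity), Nat.lt_floor_add_one _⟩
  calc volume {t : ℝ | t ∈ Ico (0 : ℝ) 1 ∧ digit k t ∈ S}
      ≤ volume (⋃ p ∈ B, J p) := measure_mono hsub
    _ ≤ ∑ p ∈ B, volume (J p) := measure_biUnion_finset_le _ _
    _ = ∑ p ∈ B, ENNReal.ofReal (1 / (M : ℝ)) := Finset.sum_congr rfl fun p _ => by
        rw [Real.volume_Ico]; congr 1; ring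
    _ = ENNReal.ofReal ((B.card : ℝ) / M) := by
        rw [Finset.sum_const, ← ENNReal.ofReal_nsmul, nsmul_eq_mul, mul_one_div]
    _ = ENNReal.ofReal ((S.card : ℝ) / 8 ^ k) := by
        congr 1
        have : (M : ℝ) = (scale k : ℝ) * 8 ^ k := by rw [hM]; simp [scale]
        have hk : (0 : ℝ) < scale k := by exact_mod_cast scale_pos k
        simp only [B, Finset.card_product, Finset.card_range, Nat.cast_mul, this]
        field_simp

theorem slalom_of_null {I : Type*}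
    (hI : ∀ Z : I → Set ℝ, (∀ i, volume (Z i) = 0) → ∃ t, ∀ i, t ∉ Z i)
    (S : I → (k : ℕ) → Finset (Fin (8 ^ k))) (hS : ∀ i k, (S i k).card ≤ 4 ^ k) :
    ∃ w : (k : ℕ) → Fin (8 ^ k), ∀ i, ∀ᶠ k in atTop, w k ∉ S i k := by
  let Y : I → Set ℝ := fun i =>
    {t | ∃ᶠ k in atTop, t ∈ Ico (0 : ℝ) 1 ∧ digit k t ∈ S i k}
  have hY : ∀ i, volume (Y i) = 0 := by
    intro i
    refine measure_setOfPred_frequently_eq_zero (ne_top_of_le_ne_top ?_
      (ENNReal.tsum_le_tsum fun k => (volume_digit_mem_le k (S i k)).trans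
        (ENNReal.ofReal_le_ofReal (q := (1 / 2 : ℝ) ^ k) ?_)))
    · exact (summable_geometric_of_lt_one (r := (1 / 2 : ℝ)) (by norm_num)
        (by norm_num)).tsum_ofReal_ne_top
    · calc ((S i k).card : ℝ) / 8 ^ k ≤ 4 ^ k / 8 ^ k := by
            gcongr
            exact_mod_cast hS i k
        _ = (1 / 2 : ℝ) ^ k := by rw [← div_pow]; norm_num
  obtain ⟨t, ht⟩ := hI (fun i => ⋃ z : ℤ, (fun s => s + (z : ℝ)) ⁻¹' Y i) fun i => by
    simp [measure_iUnion_null_iff, measure_preimage_add_right, hY]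
  refine ⟨fun k => digit k (Int.fract t), fun i => ?_⟩
  have h : Int.fract t ∉ Y i := fun hm => ht i (mem_iUnion.2 ⟨-⌊t⌋, by
    rw [mem_preimage, Int.cast_neg, ← sub_eq_add_neg]
    exact hm⟩)
  have h' := not_frequently.1 h
  exact h'.mono fun k hk hmem => hk ⟨⟨Int.fract_nonneg t, Int.fract_lt_one t⟩, hmem⟩

end Vale.Agent.P129
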